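import Vale.Agent.P282Y.All
import Vale.Agent.P282.Bd3.B11

open scoped ENNReal
open Vale.Agent.P282.Gap Vale.Agent.P282Y

namespace Vale.Agent.Results.P282.AOdpGapModels

/-- The ordinary double point volume gap, with discrepancies, klt germs and the log discrepancy of a
real valuation defined on birational models.  Let `R` be the local ring of a normal complex variety
of dimension `n ≥ 2` at a closed point `x` and let `ω` be a rational section of `r K_X`.  The
definitions are consistent, and if `ω` generates `r K_X`, the germ is klt and `x` is a singular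
point, then the normalized volume is at most `2 (n - 1) ^ n`, with equality if and only if `x` is an
ordinary double point. -/
theorem result (n r : ℕ) (hn : 2 ≤ n) (R : Type) [CommRing R] [IsDomain R] [IsLocalRing R]
    [Algebra ℂ R]
    (ω : (Fin n → Derivation ℂ (FractionRing R) (FractionRing R)) → FractionRing R)
    (h : IsGerm R n r ω) :
    Consistent R n r ω ∧ (IsKlt R n r ω → ¬ IsRegularLocalRing R →
      nvol R n r ω ≤ 2 * ((n : ℝ≥0∞) - 1) ^ n ∧
      (nvol R n r ω = 2 * ((n : ℝ≥0∞) - 1) ^ n ↔ IsODP R n)) := by
  obtain ⟨h1, h2, h3⟩ := stDICT R (FractionRing R) n r ω h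
  refine ⟨h1, fun hk hs => ?_⟩
  rw [h3]
  exact ⟨normalizedVolume_le hn (h2.1 hk) hs, isODP hn (h2.1 hk) hs,
    normalizedVolume_odp hn (h2.1 hk) hs⟩

end Vale.Agent.Results.P282.AOdpGapModels
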